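import Crest.Agent.X212.Num57.Idm
import Crest.Agent.X212.Cl74.Ly
import Crest.Agent.X212.Kb50.Tr
import Crest.Agent.X212.Lk34.Fz
import Crest.Agent.X212.Flp68.Main
import Crest.Agent.X212.Tw40.Main
import Crest.Agent.X212.Flp40.End
import Crest.Agent.X212.Num99.Main
import Crest.Agent.X212.Sb84.Asm
import Crest.Agent.X212.St29.SbE
import Crest.Agent.X212.St29.SbF
import Crest.Agent.X212.St29.SbH
import Crest.Agent.X212.St29.SbI
import Crest.Agent.X212.Sw87.SbG
import Crest.Agent.X212.Sw87.SbP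
import Crest.Agent.X212.Sb27.Top
import Crest.Agent.X212.Sb27.Cls
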